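import Crest.Agent.N233.Rg.Rel

/-!
# Row 233 (helper27): an automorphism that coarsely preserves the hyperplane stabilisers has an inner power
-/

set_option autoImplicit false

noncomputable section

namespace Crest.Agent.N233.Rg

open N255.Ra N255.Fa N233.Hyp Relation
open scoped Pointwise

variable {A P : Type} {Γ : SimpleGraph A} {st : P → A → P → Prop} {G : Type} [Group G] [MulAction G P]

variable (st G) in
/-- free cocompact actions on a locally finite graph; `B` meets every orbit -/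
structure Act (B : Set P) : Prop where
  hi : ∀ (g : G) x a y, st x a y → ∃ b, st (g • x) b (g • y)
  hl : ∀ x, {y | ∃ a, st x a y}.Finite
  free : ∀ (g : G) (x : P), g • x = x → g = 1
  fin : B.Finite
  cc : ∀ x, ∃ g : G, g • x ∈ B

/-- twisted equivariance -/
def Eqv (β : MulAut G) (q : P → P) : Prop := ∀ (g : G) x, q (g • x) = β g • q x

/-- the orbit of `β J` -/
def Orb (β : MulAut G) (J : Subgroup G) (x : P) : Set P := (fun j => β j • x) '' (J : Set G)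

/-- finite Hausdorff distance -/
def HD (φ : P → W Γ) (U V : Set P) : Prop := Near φ U V ∧ Near φ V U

variable {φ : P → W Γ} {B h h' U V T : Set P} {x y z : P} {a : A} {K R : ℕ} {β : MulAut G}

theorem HD.symm (e : HD φ U V) : HD φ V U := ⟨e.2, e.1⟩

theorem HD.trans (e : HD φ U V) (e' : HD φ V T) : HD φ U T := ⟨e.1.trans e'.1, e'.2.trans e.2⟩

theorem Near.image {q : P → P} (l : Lip φ K q) (e : Near φ U V) : Near φ (q '' U) (q '' V) := by
  obtain ⟨R, e⟩ := e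
  refine ⟨K * R, ?_⟩
  rintro _ ⟨u, hu, rfl⟩
  obtain ⟨v, hv, d⟩ := e u hu
  exact ⟨_, ⟨v, hv, rfl⟩, (l u v).trans (Nat.mul_le_mul_left K d)⟩

theorem HD.image {q : P → P} (l : Lip φ K q) (e : HD φ U V) : HD φ (q '' U) (q '' V) :=
  ⟨e.1.image l, e.2.image l⟩

theorem Eqv.symm {q : P ≃ P} (e : Eqv β q) : Eqv β⁻¹ q.symm := fun g x => by
  rw [Equiv.symm_apply_eq, e]
  simp

theorem Eqv.image {q : P → P} (e : Eqv β q) (g : G) (U : Set P) : q '' (g • U) = β g • q '' U := by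
  rw [← Set.image_smul, ← Set.image_smul, Set.image_image, Set.image_image]
  simp only [e g]

theorem Eqv.orb {q : P → P} (e : Eqv β q) (γ : MulAut G) (J : Subgroup G) (x : P) :
    q '' Orb γ J x = Orb (β * γ) J (q x) := by
  rw [Orb, Orb, Set.image_image]
  simp only [e _, MulAut.mul_apply]

theorem exists_eqv (fr : ∀ (g : G) (x : P), g • x = x → g = 1) (β : MulAut G) : ∃ q : P ≃ P, Eqv β q := by
  let r : P → P := fun x => (Quotient.mk (MulAction.orbitRel G P) x).out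
  have r1 : ∀ (g : G) x, r (g • x) = r x := fun g x =>
    congrArg Quotient.out (Quotient.sound (MulAction.mem_orbit x g))
  have r2 : ∀ x, ∃ g : G, g • r x = x := fun x =>
    (MulAction.orbitRel G P).symm (Quotient.exact (Quotient.out_eq (Quotient.mk _ x)))
  choose c hc using r2
  have c1 : ∀ (g : G) x, c (g • r x) = g := fun g x => by
    have e := hc (g • r x)
    have e' : r (r x) = r x := by rw [← r1 (c x), hc]
    rw [r1, e', ← inv_smul_eq_iff, smul_smul] at e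
    exact (inv_mul_eq_one.1 (fr _ _ e)).symm
  have inv : ∀ (β γ : MulAut G) x, γ * β = 1 → γ (c (β (c x) • r x)) • r (β (c x) • r x) = x :=
    fun β γ x e => by
      rw [c1, ← MulAut.mul_apply, e, MulAut.one_apply, r1, ← r1 (c x), hc, hc]
  refine ⟨⟨fun x => β (c x) • r x, fun x => β⁻¹ (c x) • r x, fun x => inv _ _ x (inv_mul_cancel β),
    fun x => inv _ _ x (mul_inv_cancel β)⟩, fun g x => ?_⟩
  change β (c (g • x)) • r (g • x) = β g • β (c x) • r x
  rw [r1, smul_smul, ← map_mul, ← c1 (g * c x) x, mul_smul, hc]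

section lab
variable (H : Lab Γ st φ) (C : Act st G B)
include H C

theorem dl_smul (g : G) (x y : P) : dl φ (g • x) (g • y) = dl φ x y :=
  le_antisymm (H.dl_map_le (C.hi g) _ x y rfl)
    (by simpa using H.dl_map_le (C.hi g⁻¹) _ (g • x) (g • y) rfl)

theorem Hs_smul (g : G) (x y : P) : g • Hs φ x y = Hs φ (g • x) (g • y) := by
  ext z
  rw [Set.mem_smul_set_iff_inv_smul_mem, Hs, Hs, Set.mem_ofPred_eq, Set.mem_ofPred_eq,
    ← dl_smul H C g, ← dl_smul H C g _ y, smul_inv_smul]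

theorem IsH.smul (hh : IsH st φ h) (g : G) : IsH st φ (g • h) := by
  obtain ⟨x, a, y, e, rfl⟩ := hh
  obtain ⟨b, e'⟩ := C.hi g _ _ _ e
  exact ⟨_, b, _, e', Hs_smul H C g x y⟩

theorem dp_smul_le (hh : IsH st φ h) (g : G) (z : P) : dp φ (g • h) (g • z) ≤ dp φ h z :=
  add_le_add ((hh.cvx H).ns_map_le H (C.hi g) (fun _ m => Set.smul_mem_smul_set m) z)
    (((hh.compl H).cvx H).ns_map_le H (C.hi g) (Q' := (g • h)ᶜ)
      (fun _ m n => m (Set.smul_mem_smul_set_iff.1 n)) z)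

theorem RelR.smul {q : P → P} (e : Eqv β q) (hh : IsH st φ h) (r : RelR φ R q h h') (g : G) :
    RelR φ R q (g • h) (β g • h') := fun z d => by
  obtain ⟨z, rfl⟩ := (MulAction.toPerm g).surjective z
  change q (g • z) ∈ _ ↔ g • z ∈ _
  rw [e, Set.smul_mem_smul_set_iff, Set.smul_mem_smul_set_iff]
  exact r z (d.trans (dp_smul_le H C hh g z))

theorem Rel.smul {q : P ≃ P} (e : Eqv β q) (hh : IsH st φ h) (hh' : IsH st φ h') (r : Rel φ q h h')
    (g : G) : Rel φ q (g • h) (β g • h') :=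
  ⟨r.1.imp fun _ r => r.smul H C e hh g, r.2.imp fun _ r => by simpa using r.smul H C e.symm hh' (β g)⟩

theorem HD.smul (e : HD φ U V) (g : G) : HD φ (g • U) (g • V) :=
  e.image (K := 1) (q := fun x => g • x) fun x y => by rw [dl_smul H C, one_mul]

theorem hd_orb (β : MulAut G) (J : Subgroup G) (x y : P) : HD φ (Orb β J x) (Orb β J y) := by
  have : ∀ x y, Near φ (Orb β J x) (Orb β J y) := fun x y => ⟨dl φ x y, by
    rintro _ ⟨j, hj, rfl⟩
    exact ⟨_, ⟨j, hj, rfl⟩, (dl_smul H C _ x y).le⟩⟩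
  exact ⟨this x y, this y x⟩

omit H in
theorem edges_finite : {e : P × P | e.1 ∈ B ∧ ∃ a, st e.1 a e.2}.Finite :=
  (C.fin.biUnion fun x _ => (C.hl x).image fun y => (x, y)).subset fun e he =>
    Set.mem_biUnion he.1 ⟨e.2, he.2, rfl⟩

theorem Eqv.lip {q : P → P} (e : Eqv β q) : ∃ K, Lip φ K q := by
  obtain ⟨K, hK⟩ := ((edges_finite C).image fun e => dl φ (q e.1) (q e.2)).bddAbove
  refine ⟨K, lip_of_st H fun x a y s => ?_⟩
  obtain ⟨g, hg⟩ := C.cc x
  rw [← dl_smul H C (β g), ← e, ← e]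
  exact hK ⟨(g • x, g • y), ⟨hg, C.hi g _ _ _ s⟩, rfl⟩

omit H in
theorem bd_smul (g : G) {w : P} (m : w ∈ bd st U) : g • w ∈ bd st (g • U) := by
  obtain ⟨h1, a, y, h2, h3⟩ := m
  obtain ⟨b, e⟩ := C.hi g _ _ _ h2
  exact ⟨Set.smul_mem_smul_set h1, b, _, e, fun n => h3 (Set.smul_mem_smul_set_iff.1 n)⟩

omit H in
theorem bd_smul_eq (g : G) (U : Set P) : bd st (g • U) = g • bd st U :=
  Set.ext fun w => ⟨fun m => Set.mem_smul_set_iff_inv_smul_mem.2 (by simpa using bd_smul C g⁻¹ m), by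
    rintro ⟨w, m, rfl⟩
    exact bd_smul C g m⟩

/-- the stabiliser of a half space acts cocompactly on its boundary -/
theorem hd_bd (hh : IsH st φ h) (x : P) : HD φ (bd st h) (Orb 1 (MulAction.stabilizer G h) x) := by
  constructor
  · have : ∀ e : P × P, ∃ w : P, (∃ g : G, g • Hs φ e.1 e.2 = h) →
        ∃ g : G, g • Hs φ e.1 e.2 = h ∧ w = g • e.1 := fun e => by
      by_cases c : ∃ g : G, g • Hs φ e.1 e.2 = h
      · obtain ⟨g, c⟩ := c
        exact ⟨g • e.1, fun _ => ⟨g, c, rfl⟩⟩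
      · exact ⟨x, fun n => absurd n c⟩
    choose w hw using this
    obtain ⟨D, hD⟩ := ((edges_finite C).image fun e => dl φ (w e) x).bddAbove
    refine ⟨D, fun u ⟨u1, a, v, u2, u3⟩ => ?_⟩
    obtain ⟨g, hg⟩ := C.cc u
    have e1 : g⁻¹ • Hs φ (g • u) (g • v) = h := by
      rw [← Hs_smul H C, inv_smul_smul, hh.eq H u2 u1 u3]
    obtain ⟨g', e2, e3⟩ := hw (g • u, g • v) ⟨_, e1⟩
    refine ⟨_, ⟨(g' * g)⁻¹, ?_, rfl⟩, ?_⟩
    · refine inv_mem (show (g' * g) • h = h from ?_)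
      rw [mul_smul, ← e1, smul_inv_smul, e1, e2]
    · change dl φ u ((g' * g)⁻¹ • x) ≤ D
      rw [← dl_smul H C (g' * g), smul_inv_smul, mul_smul, ← e3]
      exact hD ⟨_, ⟨hg, C.hi g _ _ _ u2⟩, rfl⟩
  · obtain ⟨w, hw, -⟩ := hh.exists_bd H x
    refine ⟨dl φ x w, ?_⟩
    rintro _ ⟨j, hj, rfl⟩
    exact ⟨j • w, (show j • h = h from hj) ▸ bd_smul C j hw, (dl_smul H C _ x w).le⟩

theorem disp_finite (D : ℕ) : {γ : G | ∃ b ∈ B, dl φ b (γ • b) ≤ D}.Finite := by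
  have b := ball_finite H.isGM fun x => ((C.hl x).insert x).subset fun y hy => by
    change dl φ x y ≤ 1 at hy
    rcases Nat.eq_zero_or_pos (dl φ x y) with h | h
    · exact Or.inl (H.eq_of_dl h).symm
    · obtain ⟨a, z, h1, h2⟩ := H.step (n := 0) (x := x) (y := y) (by omega)
      exact Or.inr ⟨a, H.eq_of_dl h2 ▸ H.symm _ _ _ h1⟩
  refine (C.fin.biUnion fun x _ => (b x D).preimage (f := fun γ : G => γ • x) fun g _ g' _ e => ?_).subset
    fun γ ⟨x, h1, h2⟩ => Set.mem_biUnion h1 h2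
  exact (inv_mul_eq_one.1 (C.free (g⁻¹ * g') x (by rw [mul_smul, inv_smul_eq_iff]; exact e.symm)))

/-- an automorphism induced by a `1`-Lipschitz map has an inner power -/
theorem inner_of_tau [Group.FG G] (o : P) {τ : P → P} (l : Lip φ 1 τ) (e : Eqv β τ) :
    ∃ n, 0 < n ∧ ∃ g : G, ∀ s, (β ^ n) s = g * s * g⁻¹ := by
  obtain ⟨S, hS⟩ := Group.fg_def.1 (inferInstance : Group.FG G)
  have l' : ∀ m x y, dl φ (τ^[m] x) (τ^[m] y) ≤ dl φ x y := fun m => by
    induction m with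
    | zero => exact fun _ _ => le_rfl
    | succ m ih => exact fun x y => (ih _ _).trans (by simpa using l x y)
  have e' : ∀ m, Eqv (β ^ m) τ^[m] := fun m => by
    induction m with
    | zero => exact fun _ _ => rfl
    | succ m ih => exact fun g x => by rw [Function.iterate_succ_apply, e, ih, pow_succ]; rfl
  choose c hc using C.cc
  obtain ⟨m, m', lt, eq⟩ := Set.Finite.exists_lt_map_eq_of_forall_mem
    (f := fun (m : ℕ) (s : S) => c (τ^[m] o) * (β ^ m) s * (c (τ^[m] o))⁻¹)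
    (t := {f | ∀ s : S, f s ∈ {γ : G | ∃ b ∈ B, dl φ b (γ • b) ≤ dl φ o ((s : G) • o)}})
    (fun m s => ⟨_, hc (τ^[m] o), by
      rw [mul_smul, inv_smul_smul, mul_smul, dl_smul H C, ← e' m]
      exact l' m _ _⟩)
    (Set.Finite.pi' fun s : S => disp_finite H C (dl φ o ((s : G) • o)))
  have all : ∀ s, c (τ^[m] o) * (β ^ m) s * (c (τ^[m] o))⁻¹ =
      c (τ^[m'] o) * (β ^ m') s * (c (τ^[m'] o))⁻¹ := fun s =>
    DFunLike.congr_fun (MonoidHom.eq_of_eqOn_dense hS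
      (f := (MulAut.conj (c (τ^[m] o)) * β ^ m).toMonoidHom)
      (g := (MulAut.conj (c (τ^[m'] o)) * β ^ m').toMonoidHom) fun s hs => congrFun eq ⟨s, hs⟩) s
  refine ⟨m' - m, by omega, (c (τ^[m'] o))⁻¹ * c (τ^[m] o), fun s => ?_⟩
  obtain ⟨s, rfl⟩ := (β ^ m).surjective s
  rw [← MulAut.mul_apply, ← pow_add, Nat.sub_add_cancel lt.le, mul_inv_rev, inv_inv, ← mul_assoc,
    mul_assoc _ (c _), mul_assoc _ _ (c _)⁻¹, all]
  group

variable (L : Loc Γ st)
include L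

/-- **coarse hyperplanes ⇒ cubical** -/
theorem exists_cubical (hβ : ∀ x ∈ B, ∀ a y, st x a y → ∃ g : G,
      HD φ (Orb β (MulAction.stabilizer G (Hs φ x y)) x)
        (g • Orb 1 (MulAction.stabilizer G (Hs φ x y)) x)) :
    ∃ τ : P → P, Lip φ 1 τ ∧ Eqv β τ := by
  obtain ⟨q, e⟩ := exists_eqv C.free β
  obtain ⟨K, l⟩ := e.lip H C
  obtain ⟨K', l'⟩ := e.symm.lip H C
  have key : ∀ x ∈ B, ∀ a y, st x a y → ∃ g : G,
      Rel φ q (Hs φ x y) (g • Hs φ x y) ∨ Rel φ q (Hs φ x y) (g • Hs φ x y)ᶜ := fun x hx a y s => by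
    obtain ⟨g, d⟩ := hβ x hx a y s
    have hh : IsH st φ (Hs φ x y) := ⟨_, _, _, s, rfl⟩
    have d1 := (hd_bd H C hh x).image l
    rw [e.orb, mul_one] at d1
    have d2 := (d1.trans (hd_orb H C _ _ _ x)).trans (d.trans ((hd_bd H C hh x).symm.smul H C g))
    rw [← bd_smul_eq C] at d2
    have d3 := d2.2.image l'
    rw [q.symm_image_image] at d3
    exact ⟨g, rel_or H L l hh (hh.smul H C g) (cl_of_near H l hh d2.1)
      (cl_of_near H l' (hh.smul H C g) d3)⟩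
  have rep : ∀ h, IsH st φ h → ∃ g : G, ∃ x ∈ B, ∃ a y, st x a y ∧ h = g • Hs φ x y := by
    rintro _ ⟨x, a, y, s, rfl⟩
    obtain ⟨g, hg⟩ := C.cc x
    obtain ⟨b, s'⟩ := C.hi g _ _ _ s
    exact ⟨g⁻¹, _, hg, b, _, s', by rw [← Hs_smul H C, inv_smul_smul]⟩
  have un : ∀ e : P × P, ∃ R, (e.1 ∈ B ∧ ∃ a, st e.1 a e.2) →
      ∃ h', IsH st φ h' ∧ Rel φ q (Hs φ e.1 e.2) h' ∧ RelR φ R q (Hs φ e.1 e.2) h' := fun e => by
    by_cases c : e.1 ∈ B ∧ ∃ a, st e.1 a e.2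
    · obtain ⟨c, a, s⟩ := c
      have hh : IsH st φ (Hs φ e.1 e.2) := ⟨_, _, _, s, rfl⟩
      obtain ⟨g, r | r⟩ := key _ c a _ s
      · exact r.1.imp fun R r' _ => ⟨_, hh.smul H C g, r, r'⟩
      · exact r.1.imp fun R r' _ => ⟨_, (hh.smul H C g).compl H, r, r'⟩
    · exact ⟨0, fun n => absurd n c⟩
  choose R hR using un
  obtain ⟨D, hD⟩ := ((edges_finite C).image R).bddAbove
  have sur : ∀ h', IsH st φ h' → ∃ h, IsH st φ h ∧ Rel φ q h h' := fun h hh => by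
    obtain ⟨g, x, hx, a, y, s, rfl⟩ := rep h hh
    have h0 : IsH st φ (Hs φ x y) := ⟨_, _, _, s, rfl⟩
    obtain ⟨g', r⟩ := key x hx a y s
    obtain ⟨c, hc⟩ := β.surjective (g * g'⁻¹)
    have k : ∀ h, IsH st φ h → Rel φ q h (g' • Hs φ x y) → ∃ h, IsH st φ h ∧ Rel φ q h (g • Hs φ x y) :=
      fun h hh r => by
        have := r.smul H C e hh (h0.smul H C g') c
        rw [hc, smul_smul, inv_mul_cancel_right] at this
        exact ⟨_, hh.smul H C c, this⟩
    rcases r with r | r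
    · exact k _ h0 r
    · exact k _ (h0.compl H) (by have := r.compl; rwa [compl_compl] at this)
  obtain ⟨τ, t1, t2⟩ := exists_tau H L C.hl (q := q) (R := D) (fun h hh => by
    obtain ⟨g, x, hx, a, y, s, rfl⟩ := rep h hh
    have h0 : IsH st φ (Hs φ x y) := ⟨_, _, _, s, rfl⟩
    obtain ⟨h', h1, h2, h3⟩ := hR (x, y) ⟨hx, a, s⟩
    exact ⟨_, h1.smul H C (β g), h2.smul H C e h0 h1 g,
      (h3.mono (hD ⟨(x, y), ⟨hx, a, s⟩, rfl⟩)).smul H C e h0 g⟩) sur
  refine ⟨τ, t1, fun g x => eq_of_IsH H fun h' hh' m => ?_⟩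
  obtain ⟨h, hh, r⟩ := sur h' hh'
  rw [t2 _ _ _ hh hh' r, ← Set.mem_inv_smul_set_iff,
    ← t2 _ _ _ (hh.smul H C _) (hh'.smul H C _) (r.smul H C e hh hh' g⁻¹), map_inv,
    Set.mem_inv_smul_set_iff] at m
  exact m

/-- **R3** for one automorphism -/
theorem inner_of_hd [Group.FG G] (o : P) (hβ : ∀ x ∈ B, ∀ a y, st x a y → ∃ g : G,
      HD φ (Orb β (MulAction.stabilizer G (Hs φ x y)) x)
        (g • Orb 1 (MulAction.stabilizer G (Hs φ x y)) x)) :
    ∃ n, 0 < n ∧ ∃ g : G, ∀ s, (β ^ n) s = g * s * g⁻¹ := by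
  obtain ⟨τ, l, e⟩ := exists_cubical H C L hβ
  exact inner_of_tau H C o l e

/-- **R3**: finitely many coarse images of every hyperplane ⇒ `Out G` is torsion -/
theorem inner [Group.FG G] (o : P) (hR : ∀ x ∈ B, ∀ a y, st x a y → ∃ F : Set (Set P), F.Finite ∧
      ∀ α : MulAut G, ∃ Z ∈ F, ∃ g : G, HD φ (Orb α (MulAction.stabilizer G (Hs φ x y)) x) (g • Z))
    (α : MulAut G) : ∃ n, 0 < n ∧ ∃ g : G, ∀ s, (α ^ n) s = g * s * g⁻¹ := by
  let E := {e : P × P | e.1 ∈ B ∧ ∃ a, st e.1 a e.2}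
  have : Finite E := (edges_finite C).to_subtype
  choose F F1 F2 using fun e : E => hR e.1.1 e.2.1 e.2.2.choose e.1.2 e.2.2.choose_spec
  choose Z Z1 g Z2 using F2
  obtain ⟨m, m', lt, eq⟩ := Set.Finite.exists_lt_map_eq_of_forall_mem
    (f := fun (m : ℕ) (e : E) => Z e (α ^ m)) (t := {f | ∀ e, f e ∈ F e}) (fun m e => Z1 e _)
    (Set.Finite.pi' F1)
  obtain ⟨n, n0, c, hc⟩ := inner_of_hd H C L (β := α ^ (m' - m)) o fun x hx a y s => by
    let e : E := ⟨(x, y), hx, a, s⟩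
    obtain ⟨q, q1⟩ := exists_eqv C.free (α ^ m)⁻¹
    obtain ⟨K, l⟩ := q1.lip H C
    have d1 := (Z2 e (α ^ m)).smul H C (g e (α ^ m') * (g e (α ^ m))⁻¹)
    rw [smul_smul, inv_mul_cancel_right, show Z e (α ^ m) = Z e (α ^ m') from congrFun eq e] at d1
    have d2 := ((Z2 e (α ^ m')).trans d1.symm).image l
    rw [q1.image, q1.orb, q1.orb, inv_mul_cancel, show (α ^ m)⁻¹ * α ^ m' = α ^ (m' - m) by
      rw [inv_mul_eq_iff_eq_mul, ← pow_add, Nat.add_sub_cancel' lt.le]] at d2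
    exact ⟨_, ((hd_orb H C _ _ _ _).trans d2).trans ((hd_orb H C _ _ _ _).smul H C _)⟩
  exact ⟨(m' - m) * n, Nat.mul_pos (by omega) n0, c, fun s => by rw [pow_mul, hc]⟩

end lab

end Crest.Agent.N233.Rg

end
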