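import Crest.Agent.N233.Rg.Hs

/-!
# Row 233 (helper27): normal flag three dimensional pseudomanifolds
-/

set_option autoImplicit false

noncomputable section

namespace Crest.Agent.N233.Rg

open N233.Hyp Relation

variable {A : Type} (Γ : SimpleGraph A)

/-- `K` spans a connected subgraph -/
def Con (K : Set A) : Prop := ∀ x ∈ K, ∀ y ∈ K, ReflTransGen (fun u v => Γ.Adj u v ∧ v ∈ K) x y

/-- a normal flag pseudomanifold of dimension three with vertex set `V` -/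
structure Psm (V : Set A) : Prop where
  no5 : ∀ a ∈ V, ∀ b ∈ V, ∀ c ∈ V, ∀ d ∈ V, ∀ e ∈ V, Γ.Adj a b → Γ.Adj a c → Γ.Adj a d → Γ.Adj a e → Γ.Adj b c → Γ.Adj b d →
    Γ.Adj b e → Γ.Adj c d → Γ.Adj c e → ¬Γ.Adj d e
  e1 : ∀ a ∈ V, ∃ b ∈ V, Γ.Adj a b
  e2 : ∀ a ∈ V, ∀ b ∈ V, Γ.Adj a b → ∃ c ∈ V, Γ.Adj a c ∧ Γ.Adj b c
  e3 : ∀ a ∈ V, ∀ b ∈ V, ∀ c ∈ V, Γ.Adj a b → Γ.Adj a c → Γ.Adj b c →
    ∃ d ∈ V, Γ.Adj a d ∧ Γ.Adj b d ∧ Γ.Adj c d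
  oth : ∀ a ∈ V, ∀ b ∈ V, ∀ c ∈ V, ∀ d ∈ V, Γ.Adj a b → Γ.Adj a c → Γ.Adj b c → Γ.Adj a d →
    Γ.Adj b d → Γ.Adj c d → ∃ d' ∈ V, d' ≠ d ∧ Γ.Adj a d' ∧ Γ.Adj b d' ∧ Γ.Adj c d'
  two : ∀ a ∈ V, ∀ b ∈ V, ∀ c ∈ V, Γ.Adj a b → Γ.Adj a c → Γ.Adj b c → ∃ d d', ∀ e ∈ V,
    Γ.Adj a e → Γ.Adj b e → Γ.Adj c e → e = d ∨ e = d'
  c0 : Con Γ V
  c1 : ∀ a ∈ V, Con Γ {c | c ∈ V ∧ Γ.Adj a c}
  c2 : ∀ a ∈ V, ∀ b ∈ V, Γ.Adj a b → Con Γ {c | c ∈ V ∧ Γ.Adj a c ∧ Γ.Adj b c}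
  fin : ∀ a ∈ V, {c | c ∈ V ∧ Γ.Adj a c}.Finite

variable {Γ} {K K' R V σ : Set A} {a b c d x y : A}

theorem rtg_mono (h : K ⊆ K') (p : ReflTransGen (fun u v => Γ.Adj u v ∧ v ∈ K) x y) :
    ReflTransGen (fun u v => Γ.Adj u v ∧ v ∈ K') x y := by
  induction p with
  | refl => exact .refl
  | tail _ j ih => exact ih.tail ⟨j.1, h j.2⟩

/-- paths can be pushed off `R` -/
theorem Con.reroute (h : Con Γ K) (h1 : ∀ v ∈ K, v ∈ R → Con Γ {c | c ∈ K \ R ∧ Γ.Adj v c})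
    (h2 : ∀ v ∈ K, v ∈ R → ∀ w ∈ K, w ∈ R → Γ.Adj v w → ∃ c ∈ K \ R, Γ.Adj v c ∧ Γ.Adj w c) :
    Con Γ (K \ R) := fun x hx y hy => by
  have key : ∀ y, ReflTransGen (fun u v => Γ.Adj u v ∧ v ∈ K) x y → y ∈ K ∧
      (y ∉ R → ReflTransGen (fun u v => Γ.Adj u v ∧ v ∈ K \ R) x y) ∧
      (y ∈ R → ∀ c ∈ K \ R, Γ.Adj y c → ReflTransGen (fun u v => Γ.Adj u v ∧ v ∈ K \ R) x c) :=
    fun y p => by
    induction p with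
    | refl => exact ⟨hx.1, fun _ => .refl, fun m => absurd m hx.2⟩
    | @tail u v _ j ih =>
      obtain ⟨i0, i1, i2⟩ := ih
      by_cases m : u ∈ R
      · refine ⟨j.2, fun n => i2 m v ⟨j.2, n⟩ j.1, fun n c hc e => ?_⟩
        obtain ⟨w, w1, w2, w3⟩ := h2 u i0 m v j.2 n j.1
        exact (i2 m w w1 w2).trans (rtg_mono (fun _ h => h.1) (h1 v j.2 n w ⟨w1, w3⟩ c ⟨hc, e⟩))
      · refine ⟨j.2, fun n => (i1 m).tail ⟨j.1, j.2, n⟩, fun n c hc e => ?_⟩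
        exact (i1 m).trans (rtg_mono (fun _ h => h.1) (h1 v j.2 n u ⟨⟨i0, m⟩, j.1.symm⟩ c ⟨hc, e⟩))
  exact (key y (h x hx.1 y hy.1)).2.1 hy.2

/-- in a graph of degree two a finite set does not have exactly one exit -/
theorem not_one_exit {D : Set A} (f : D.Finite) (s : D ⊆ K)
    (deg : ∀ x ∈ K, ∃ u u', u ≠ u' ∧ ∀ e, (e ∈ K ∧ Γ.Adj x e) ↔ e = u ∨ e = u') (hx : x ∈ D)
    (hy : y ∈ K) (hy' : y ∉ D) (e : Γ.Adj x y)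
    (un : ∀ x' ∈ D, ∀ y' ∈ K, y' ∉ D → Γ.Adj x' y' → x' = x ∧ y' = y) : False := by
  classical
  have := f.fintype
  let G : SimpleGraph D := Γ.induce D
  have dg : ∀ v : D, (Odd (G.degree v) ↔ v.1 = x) := fun v => by
    obtain ⟨u, u', ne, hu⟩ := deg v (s v.2)
    have c : G.degree v = ({u, u'} ∩ D : Set A).ncard := by
      rw [← SimpleGraph.card_neighborFinset_eq_degree, ← Set.ncard_coe_finset,
        ← Set.ncard_image_of_injective _ Subtype.val_injective]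
      congr 1
      ext w
      simp only [Set.mem_image, Finset.mem_coe, SimpleGraph.mem_neighborFinset, Set.mem_inter_iff,
        Set.mem_insert_iff, Set.mem_singleton_iff, ← hu]
      exact ⟨fun ⟨w, h, r⟩ => r ▸ ⟨⟨s w.2, h⟩, w.2⟩, fun h => ⟨⟨w, h.2⟩, h.1.2, rfl⟩⟩
    have a1 := (hu u).2 (Or.inl rfl)
    have a2 := (hu u').2 (Or.inr rfl)
    rw [c]
    by_cases r : v.1 = x
    · refine iff_of_true ?_ r
      rcases (hu y).1 ⟨hy, r ▸ e⟩ with rfl | rfl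
      · have : u' ∈ D := by_contra fun n => ne (un _ v.2 _ a2.1 n a2.2).2.symm
        rw [Set.insert_inter_of_notMem hy', Set.singleton_inter_of_mem this, Set.ncard_singleton]
        exact odd_one
      · have : u ∈ D := by_contra fun n => ne (un _ v.2 _ a1.1 n a1.2).2
        rw [Set.pair_comm, Set.insert_inter_of_notMem hy', Set.singleton_inter_of_mem this,
          Set.ncard_singleton]
        exact odd_one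
    · refine iff_of_false ?_ r
      have b1 : u ∈ D := by_contra fun n => r (un _ v.2 _ a1.1 n a1.2).1
      have b2 : u' ∈ D := by_contra fun n => r (un _ v.2 _ a2.1 n a2.2).1
      rw [Set.inter_eq_left.2 (Set.pair_subset b1 b2), Set.ncard_pair ne]
      decide
  obtain ⟨w, w1, w2⟩ := G.exists_ne_odd_degree_of_exists_odd_degree ⟨x, hx⟩ ((dg _).2 rfl)
  exact w1 (Subtype.ext ((dg w).1 w2))

/-- a circle minus an arc is connected -/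
theorem Con.circle (h : Con Γ K) (f : K.Finite)
    (deg : ∀ x ∈ K, ∃ u u', u ≠ u' ∧ ∀ e, (e ∈ K ∧ Γ.Adj x e) ↔ e = u ∨ e = u') (p q p' q' : A)
    (ex : ∀ x ∈ K, x ∉ R → ∀ y ∈ K, y ∈ R → Γ.Adj x y → (x = p ∧ y = q) ∨ (x = p' ∧ y = q')) :
    Con Γ (K \ R) := by
  have key : ∀ x ∈ K \ R, (∀ y ∈ K \ R, ReflTransGen (fun u v => Γ.Adj u v ∧ v ∈ K \ R) x y) ∨
      ReflTransGen (fun u v => Γ.Adj u v ∧ v ∈ K \ R) x p := fun x hx => by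
    let D := {y | ReflTransGen (fun u v => Γ.Adj u v ∧ v ∈ K \ R) x y}
    have s : D ⊆ K \ R := fun y hy => by
      cases hy with
      | refl => exact hx
      | tail _ j => exact j.2
    have o : ∀ u ∈ D, ∀ v ∈ K, v ∉ D → Γ.Adj u v → (u = p ∧ v = q) ∨ (u = p' ∧ v = q') :=
      fun u hu v hv n e => ex u (s hu).1 (s hu).2 v hv (by_contra fun m => n (hu.tail ⟨e, hv, m⟩)) e
    refine or_iff_not_imp_right.2 fun n y hy => ?_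
    have : ∀ y, ReflTransGen (fun u v => Γ.Adj u v ∧ v ∈ K) x y → y ∈ D := fun y t => by
      induction t with
      | refl => exact .refl
      | @tail u v _ j ih =>
        refine by_contra fun m => not_one_exit (f.subset fun _ h => (s h).1) (fun _ h => (s h).1) deg ih
          j.2 m j.1 fun u' hu' v' hv' m' e' => ?_
        obtain ⟨rfl, rfl⟩ := (o u ih v j.2 m j.1).resolve_left fun h => n (h.1 ▸ ih)
        exact (o u' hu' v' hv' m' e').resolve_left fun h => n (h.1 ▸ hu')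
    exact this y (h x hx.1 y hy.1)
  have sy : ∀ x ∈ K \ R, ∀ y, ReflTransGen (fun u v => Γ.Adj u v ∧ v ∈ K \ R) x y →
      y ∈ K \ R ∧ ReflTransGen (fun u v => Γ.Adj u v ∧ v ∈ K \ R) y x := fun x hx y t => by
    induction t with
    | refl => exact ⟨hx, .refl⟩
    | tail _ j ih => exact ⟨j.2, ih.2.head ⟨j.1.symm, ih.1⟩⟩
  intro x hx y hy
  rcases key x hx with k | k
  · exact k y hy
  rcases key y hy with k' | k'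
  · exact (sy y hy x (k' x hx)).2
  · exact k.trans (sy y hy p k').2

namespace Psm
variable (M : Psm Γ V)
include M

theorem oth' (ha : a ∈ V) (hb : b ∈ V) (hc : c ∈ V) (hd : d ∈ V) (ab : Γ.Adj a b) (ac : Γ.Adj a c)
    (bc : Γ.Adj b c) (ad : Γ.Adj a d) (bd : Γ.Adj b d) (cd : Γ.Adj c d) :
    ∃ d' ∈ V, d' ≠ d ∧ ¬Γ.Adj d d' ∧ Γ.Adj a d' ∧ Γ.Adj b d' ∧ Γ.Adj c d' := by
  obtain ⟨e, h1, h2, h3, h4, h5⟩ := M.oth a ha b hb c hc d hd ab ac bc ad bd cd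
  exact ⟨e, h1, h2, M.no5 a ha b hb c hc d hd e h1 ab ac ad h3 bc bd h4 cd h5, h3, h4, h5⟩

/-- links of edges are circles -/
theorem deg (ha : a ∈ V) (hb : b ∈ V) (ab : Γ.Adj a b) :
    ∀ x ∈ {c | c ∈ V ∧ Γ.Adj a c ∧ Γ.Adj b c}, ∃ u u', u ≠ u' ∧
      ∀ e, (e ∈ {c | c ∈ V ∧ Γ.Adj a c ∧ Γ.Adj b c} ∧ Γ.Adj x e) ↔ e = u ∨ e = u' :=
  fun x ⟨hx, ax, bx⟩ => by
  obtain ⟨u, h1, h2, h3, h4⟩ := M.e3 a ha b hb x hx ab ax bx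
  obtain ⟨u', k1, k2, k3, k4, k5⟩ := M.oth a ha b hb x hx u h1 ab ax bx h2 h3 h4
  obtain ⟨d, d', t⟩ := M.two a ha b hb x hx ab ax bx
  refine ⟨u, u', k2.symm, fun e => ⟨fun ⟨⟨e1, e2, e3⟩, e4⟩ => ?_, ?_⟩⟩
  · have t1 := t u h1 h2 h3 h4
    have t2 := t u' k1 k3 k4 k5
    have t3 := t e e1 e2 e3 e4
    grind
  · rintro (rfl | rfl)
    exacts [⟨⟨h1, h2, h3⟩, h4⟩, ⟨⟨k1, k3, k4⟩, k5⟩]

theorem fin2 (ha : a ∈ V) : {c | c ∈ V ∧ Γ.Adj a c ∧ Γ.Adj b c}.Finite :=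
  (M.fin a ha).subset fun _ h => ⟨h.1, h.2.1⟩

/-- a circle minus a clique -/
theorem con_c1 (ha : a ∈ V) (hb : b ∈ V) (ab : Γ.Adj a b) (hσ : Γ.IsClique σ) :
    Con Γ ({c | c ∈ V ∧ Γ.Adj a c ∧ Γ.Adj b c} \ σ) := by
  have dg := M.deg ha hb ab
  have cc := fun p q p' q' => (M.c2 a ha b hb ab).circle (R := σ) (M.fin2 ha) dg p q p' q'
  by_cases c1 : ∃ v ∈ σ, v ∈ {c | c ∈ V ∧ Γ.Adj a c ∧ Γ.Adj b c}
  swap
  · exact cc a a a a fun _ _ _ y h1 h2 _ => absurd ⟨y, h2, h1⟩ c1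
  obtain ⟨v, v1, v2⟩ := c1
  obtain ⟨u, u', ne, hu⟩ := dg v v2
  by_cases c2 : ∃ w ∈ σ, w ∈ {c | c ∈ V ∧ Γ.Adj a c ∧ Γ.Adj b c} ∧ w ≠ v
  swap
  · refine cc u v u' v fun x h1 _ y h2 h3 e => ?_
    obtain rfl : y = v := by_contra fun n => c2 ⟨y, h3, h2, n⟩
    simpa using (hu x).1 ⟨h1, e.symm⟩
  obtain ⟨w, w1, w2, w3⟩ := c2
  have vw := hσ v1 w1 w3.symm
  obtain ⟨p, -, p1, -, p2⟩ : ∃ p ∈ V, p ≠ w ∧ True ∧ ∀ e ∈ {c | c ∈ V ∧ Γ.Adj a c ∧ Γ.Adj b c},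
      Γ.Adj v e → e = w ∨ e = p := by
    have a1 := (hu u).2 (Or.inl rfl)
    have a2 := (hu u').2 (Or.inr rfl)
    rcases (hu w).1 ⟨w2, vw⟩ with rfl | rfl
    · exact ⟨u', a2.1.1, ne.symm, trivial, fun e h1 h2 => (hu e).1 ⟨h1, h2⟩⟩
    · exact ⟨u, a1.1.1, ne, trivial, fun e h1 h2 => ((hu e).1 ⟨h1, h2⟩).symm⟩
  obtain ⟨t, t', ne', ht⟩ := dg w w2
  obtain ⟨p', p3⟩ : ∃ p', ∀ e ∈ {c | c ∈ V ∧ Γ.Adj a c ∧ Γ.Adj b c}, Γ.Adj w e → e = v ∨ e = p' := by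
    rcases (ht v).1 ⟨v2, vw.symm⟩ with rfl | rfl
    · exact ⟨t', fun e h1 h2 => (ht e).1 ⟨h1, h2⟩⟩
    · exact ⟨t, fun e h1 h2 => ((ht e).1 ⟨h1, h2⟩).symm⟩
  refine cc p v p' w fun x h1 n y h2 h3 e => ?_
  by_cases r : y = v
  · subst r
    exact Or.inl ⟨(p2 x h1 e.symm).resolve_left fun r => n (r ▸ w1), rfl⟩
  by_cases r' : y = w
  · subst r'
    exact Or.inr ⟨(p3 x h1 e.symm).resolve_left fun r => n (r ▸ v1), rfl⟩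
  exact absurd (hσ w1 h3 (Ne.symm r'))
    (M.no5 a ha b hb v v2.1 w w2.1 y h2.1 ab v2.2.1 w2.2.1 h2.2.1 v2.2.2 w2.2.2 h2.2.2 vw (hσ v1 h3 (Ne.symm r)))

/-- a circle minus a star -/
theorem con_c2 (ha : a ∈ V) (hb : b ∈ V) (hc : c ∈ V) (ab : Γ.Adj a b) (ac : Γ.Adj a c)
    (bc : Γ.Adj b c) : Con Γ ({d | d ∈ V ∧ Γ.Adj a d ∧ Γ.Adj b d} \ {d | d = c ∨ Γ.Adj c d}) := by
  have dg := M.deg ha hb ab
  have nx : ∀ u ∈ {d | d ∈ V ∧ Γ.Adj a d ∧ Γ.Adj b d}, Γ.Adj c u →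
      ∃ p, ∀ e ∈ {d | d ∈ V ∧ Γ.Adj a d ∧ Γ.Adj b d}, Γ.Adj u e → e = c ∨ e = p := fun u hu e => by
    obtain ⟨t, t', -, ht⟩ := dg u hu
    rcases (ht c).1 ⟨⟨hc, ac, bc⟩, e.symm⟩ with rfl | rfl
    · exact ⟨t', fun e h1 h2 => (ht e).1 ⟨h1, h2⟩⟩
    · exact ⟨t, fun e h1 h2 => ((ht e).1 ⟨h1, h2⟩).symm⟩
  obtain ⟨u, u', -, hu⟩ := dg c ⟨hc, ac, bc⟩
  have a1 := (hu u).2 (Or.inl rfl)
  have a2 := (hu u').2 (Or.inr rfl)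
  obtain ⟨p, hp⟩ := nx u a1.1 a1.2
  obtain ⟨p', hp'⟩ := nx u' a2.1 a2.2
  refine (M.c2 a ha b hb ab).circle (M.fin2 ha) dg p u p' u' fun x h1 n y h2 h3 e => ?_
  rcases h3 with rfl | h3
  · exact absurd (Or.inr e.symm) n
  rcases (hu y).1 ⟨h2, h3⟩ with rfl | rfl
  · exact Or.inl ⟨(hp x h1 e.symm).resolve_left fun r => n (Or.inl r), rfl⟩
  · exact Or.inr ⟨(hp' x h1 e.symm).resolve_left fun r => n (Or.inl r), rfl⟩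

theorem apex_out (ha : a ∈ V) (hb : b ∈ V) (hc : c ∈ V) (ab : Γ.Adj a b) (ac : Γ.Adj a c)
    (bc : Γ.Adj b c) (hσ : Γ.IsClique σ) : ∃ d ∈ V, d ∉ σ ∧ Γ.Adj a d ∧ Γ.Adj b d ∧ Γ.Adj c d := by
  obtain ⟨d, h1, h2, h3, h4⟩ := M.e3 a ha b hb c hc ab ac bc
  obtain ⟨e, k1, k2, k3, k4⟩ := M.oth' ha hb hc h1 ab ac bc h2 h3 h4
  by_cases m : d ∈ σ
  · exact ⟨e, k1, fun n => k3 (hσ m n k2.symm), k4⟩
  · exact ⟨d, h1, m, h2, h3, h4⟩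

/-- **the link of a vertex minus a clique is nonempty** -/
theorem lk_ne (ha : a ∈ V) (hσ : Γ.IsClique σ) : ∃ c ∈ V, Γ.Adj a c ∧ c ∉ σ := by
  obtain ⟨b, hb, ab⟩ := M.e1 a ha
  obtain ⟨c, hc, ac, bc⟩ := M.e2 a ha b hb ab
  obtain ⟨d, h1, h2, h3, -⟩ := M.apex_out ha hb hc ab ac bc hσ
  exact ⟨d, h1, h3, h2⟩

/-- **the link of a vertex minus a clique is connected** -/
theorem lk_con (ha : a ∈ V) (hσ : Γ.IsClique σ) : Con Γ ({c | c ∈ V ∧ Γ.Adj a c} \ σ) := by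
  refine (M.c1 a ha).reroute (fun v hv _ => ?_) fun v hv _ w hw _ e => ?_
  · convert M.con_c1 ha hv.1 hv.2 hσ using 1
    ext c
    simp only [Set.mem_sdiff, Set.mem_ofPred_eq]
    tauto
  · obtain ⟨d, h1, h2, h3, h4⟩ := M.apex_out ha hv.1 hw.1 hv.2 hw.2 e hσ
    exact ⟨d, ⟨⟨h1, h3⟩, h2⟩, h4⟩

/-- a link minus a star -/
theorem lk_star (ha : a ∈ V) (hb : b ∈ V) (ab : Γ.Adj a b) :
    Con Γ (({c | c ∈ V ∧ Γ.Adj b c} \ {a}) \ {c | Γ.Adj a c}) := by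
  refine (M.lk_con hb (Γ.isClique_singleton a)).reroute (fun v hv av => ?_) fun v hv av w hw aw e => ?_
  · convert M.con_c2 hb hv.1.1 ha hv.1.2 ab.symm (SimpleGraph.Adj.symm av) using 1
    ext c
    simp only [Set.mem_sdiff, Set.mem_ofPred_eq, Set.mem_singleton_iff]
    tauto
  · obtain ⟨d, h1, h2, h3, h4, h5⟩ := M.oth' hb hv.1.1 hw.1.1 ha hv.1.2 hw.1.2 e ab.symm
      (SimpleGraph.Adj.symm av) (SimpleGraph.Adj.symm aw)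
    exact ⟨d, ⟨⟨⟨h1, h4⟩, h2⟩, h3⟩, h5⟩

/-- **the complement of a star is connected** -/
theorem out_con (ha : a ∈ V) : Con Γ {c | c ∈ V ∧ c ≠ a ∧ ¬Γ.Adj a c} := by
  have h0 : Con Γ (V \ {a}) := M.c0.reroute (fun v _ e => by
    obtain rfl : v = a := e
    convert M.c1 v ha using 1
    ext c
    simp only [Set.mem_sdiff, Set.mem_ofPred_eq, Set.mem_singleton_iff]
    exact ⟨fun h => ⟨h.1.1, h.2⟩, fun h => ⟨⟨h.1, h.2.ne'⟩, h.2⟩⟩)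
    fun v _ e w _ e' j => absurd (e.trans e'.symm) j.ne
  convert h0.reroute (R := {c | Γ.Adj a c}) (fun v hv av => ?_) (fun v hv av w hw aw e => ?_) using 1
  · ext c
    simp only [Set.mem_sdiff, Set.mem_ofPred_eq, Set.mem_singleton_iff]
    tauto
  · convert M.lk_star ha hv.1 av using 1
    ext c
    simp only [Set.mem_sdiff, Set.mem_ofPred_eq, Set.mem_singleton_iff]
    tauto
  · obtain ⟨u, hu, au, vu, wu⟩ := M.e3 a ha v hv.1 w hw.1 av aw e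
    obtain ⟨d, h1, h2, h3, h4, h5, -⟩ := M.oth' hv.1 hw.1 hu ha e vu wu (SimpleGraph.Adj.symm av)
      (SimpleGraph.Adj.symm aw) au.symm
    exact ⟨d, ⟨⟨h1, h2⟩, h3⟩, h4, h5⟩

theorem out_adj (ha : a ∈ V) (hb : b ∈ V) (ab : Γ.Adj a b) :
    ∃ c ∈ V, c ≠ a ∧ ¬Γ.Adj a c ∧ Γ.Adj b c := by
  obtain ⟨c, hc, ac, bc⟩ := M.e2 a ha b hb ab
  obtain ⟨u, hu, au, bu, cu⟩ := M.e3 a ha b hb c hc ab ac bc
  obtain ⟨d, h1, h2, h3, h4, -⟩ := M.oth' hb hc hu ha bc bu cu ab.symm ac.symm au.symm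
  exact ⟨d, h1, h2, h3, h4⟩

/-- the complement of a star is not a clique -/
theorem out_big (hq : NoSq Γ) (ha : a ∈ V) (hσ : Γ.IsClique σ) :
    ∃ c ∈ V, c ≠ a ∧ ¬Γ.Adj a c ∧ c ∉ σ := by
  by_contra n
  have n' : ∀ c ∈ V, c ≠ a → ¬Γ.Adj a c → c ∈ σ := fun c h1 h2 h3 =>
    by_contra fun h4 => n ⟨c, h1, h2, h3, h4⟩
  have ap : ∀ b ∈ V, ∀ v ∈ V, ∀ w ∈ V, Γ.Adj a b → Γ.Adj a v → Γ.Adj a w → Γ.Adj b v → Γ.Adj b w →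
      Γ.Adj v w → ∃ p ∈ σ, p ∈ V ∧ p ≠ a ∧ ¬Γ.Adj a p ∧ Γ.Adj b p ∧ Γ.Adj v p ∧ Γ.Adj w p :=
    fun b hb v hv w hw ab av aw bv bw vw => by
    obtain ⟨p, h1, h2, h3, h4⟩ := M.oth' hb hv hw ha bv bw vw ab.symm av.symm aw.symm
    exact ⟨p, n' p h1 h2 h3, h1, h2, h3, h4⟩
  have ad : ∀ p ∈ σ, ∀ p' ∈ σ, p ≠ a → ¬Γ.Adj a p → ∀ x y, Γ.Adj a x → Γ.Adj a y → y ≠ x →
      ¬Γ.Adj x y → Γ.Adj x p → Γ.Adj y p' → Γ.Adj p p' := fun p h1 p' h2 h3 h4 x y ax ay ne na xp yp =>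
    hσ h1 h2 fun e => (hq a x p y ax xp (e ▸ yp.symm) ay.symm h3.symm ne.symm).elim h4 na
  obtain ⟨b, hb, ab⟩ := M.e1 a ha
  obtain ⟨v, hv, av, bv⟩ := M.e2 a ha b hb ab
  obtain ⟨w, hw, aw, bw, vw⟩ := M.e3 a ha b hb v hv ab av bv
  obtain ⟨w', hw', w1, w2, aw', bw', vw'⟩ := M.oth' ha hb hv hw ab av bv aw bw vw
  obtain ⟨v', hv', v1, v2, av', bv', wv'⟩ := M.oth' ha hb hw hv ab aw bw av bv vw.symm
  obtain ⟨b', hb', b1, b2, ab', vb', wb'⟩ := M.oth' ha hv hw hb av aw vw ab bv.symm bw.symm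
  obtain ⟨u, hu, u1, u2, au, bu, wu⟩ := M.oth' ha hb hw' hv ab aw' bw' av bv vw'.symm
  obtain ⟨p1, s1, t1, n1, m1, x1, y1, z1⟩ := ap b hb v hv w hw ab av aw bv bw vw
  obtain ⟨p2, s2, t2, n2, m2, x2, y2, z2⟩ := ap b hb v hv w' hw' ab av aw' bv bw' vw'
  obtain ⟨p3, s3, t3, n3, m3, x3, y3, z3⟩ := ap b hb v' hv' w hw ab av' aw bv' bw wv'.symm
  obtain ⟨p4, s4, t4, n4, m4, x4, y4, z4⟩ := ap b' hb' v hv w hw ab' av aw vb'.symm wb'.symm vw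
  obtain ⟨p5, s5, t5, n5, m5, x5, y5, z5⟩ := ap b hb u hu w' hw' ab au aw' bu bw' wu.symm
  exact M.no5 p1 t1 p2 t2 p3 t3 p4 t4 p5 t5 (ad _ s1 _ s2 n1 m1 w w' aw aw' w1 w2 z1 z2)
    (ad _ s1 _ s3 n1 m1 v v' av av' v1 v2 y1 y3) (ad _ s1 _ s4 n1 m1 b b' ab ab' b1 b2 x1 x4)
    (ad _ s1 _ s5 n1 m1 w w' aw aw' w1 w2 z1 z5) (ad _ s3 _ s2 n3 m3 w w' aw aw' w1 w2 z3 z2).symm
    (ad _ s4 _ s2 n4 m4 w w' aw aw' w1 w2 z4 z2).symm (ad _ s2 _ s5 n2 m2 v u av au u1 u2 y2 y5)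
    (ad _ s4 _ s3 n4 m4 v v' av av' v1 v2 y4 y3).symm (ad _ s3 _ s5 n3 m3 w w' aw aw' w1 w2 z3 z5)
    (ad _ s4 _ s5 n4 m4 w w' aw aw' w1 w2 z4 z5)

end Psm

/-- **pseudomanifold links satisfy the local conditions** -/
theorem loc_of_psm {P : Type} {st : P → A → P → Prop} (hq : NoSq Γ)
    (M : ∀ x, Psm Γ {a | ∃ y, st x a y}) : Loc Γ st where
  b1 x _ y e c c' o o' := (M x).out_con ⟨y, e⟩ c o c' o'
  b2 x _ y _ z e e' j := ((M x).out_adj ⟨y, e⟩ ⟨z, e'⟩ j).imp fun _ h => ⟨⟨h.1, h.2.1, h.2.2.1⟩, h.2.2.2⟩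
  b3 x _ y e _ hσ := ((M x).out_big hq ⟨y, e⟩ hσ).imp fun _ h => ⟨⟨h.1, h.2.1, h.2.2.1⟩, h.2.2.2⟩

end Crest.Agent.N233.Rg

end
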