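import Crest.Agent.N233.Rg.Hs

/-!
# Row 233 (helper27): a Lipschitz bijection that coarsely preserves hyperplanes acts on half spaces,
hence on vertices
-/

set_option autoImplicit false

noncomputable section

namespace Crest.Agent.N233.Rg

open N255.Ra N255.Fa N233.Hyp Relation

variable {A P : Type} {Γ : SimpleGraph A} {st : P → A → P → Prop}

section defs
variable (φ : P → W Γ)

/-- `K`-Lipschitz maps -/
def Lip (K : ℕ) (q : P → P) : Prop := ∀ x y, dl φ (q x) (q y) ≤ K * dl φ x y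

/-- points near the hyperplane of `h` go to points near the hyperplane of `h'` -/
def Cl (q : P → P) (h h' : Set P) : Prop := ∀ R, ∃ R', ∀ z, dp φ h z ≤ R → dp φ h' (q z) ≤ R'

/-- far from the hyperplane, `q` maps `h` to `h'` -/
def RelR (R : ℕ) (q : P → P) (h h' : Set P) : Prop := ∀ z, R ≤ dp φ h z → (q z ∈ h' ↔ z ∈ h)

/-- `q` maps `h` coarsely onto `h'` -/
def Rel (q : P ≃ P) (h h' : Set P) : Prop := (∃ R, RelR φ R q h h') ∧ ∃ R, RelR φ R q.symm h' h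

end defs

variable {φ : P → W Γ} {h k h' k' : Set P} {x y z : P} {a : A} {K R : ℕ}

theorem RelR.compl {q : P → P} (e : RelR φ R q h h') : RelR φ R q hᶜ h'ᶜ :=
  fun z hz => not_congr (e z (by rwa [dp_compl] at hz))

theorem RelR.mono {q : P → P} (e : RelR φ R q h h') {R' : ℕ} (l : R ≤ R') : RelR φ R' q h h' :=
  fun z hz => e z (l.trans hz)

theorem Rel.compl {q : P ≃ P} (e : Rel φ q h h') : Rel φ q hᶜ h'ᶜ :=
  ⟨e.1.imp fun _ => RelR.compl, e.2.imp fun _ => RelR.compl⟩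

theorem Rel.symm {q : P ≃ P} (e : Rel φ q h h') : Rel φ q.symm h' h := ⟨e.2, e.1⟩

theorem Cl.compl {q : P → P} (e : Cl φ q h h') : Cl φ q h h'ᶜ := fun R =>
  (e R).imp fun _ e z hz => by rw [dp_compl]; exact e z hz

theorem rel_of {q : P ≃ P} (e : RelR φ R q h h') (c : Cl φ q h h') : Rel φ q h h' := by
  obtain ⟨R', c⟩ := c R
  refine ⟨⟨R, e⟩, R' + 1, fun w hw => ?_⟩
  have := e (q.symm w) (by_contra fun n => by
    have := c (q.symm w) (by omega)
    rw [q.apply_symm_apply] at this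
    omega)
  rw [q.apply_symm_apply] at this
  exact this.symm

section lab
variable (H : Lab Γ st φ)
include H

theorem lip_of_st {q : P → P} (e : ∀ x a y, st x a y → dl φ (q x) (q y) ≤ K) : Lip φ K q := by
  intro x y
  generalize n : dl φ x y = m
  induction m generalizing y with
  | zero => rw [H.eq_of_dl n, dl_self]; omega
  | succ m ih =>
    obtain ⟨a, w, h1, h2⟩ := H.step n
    have := ih w h2
    have := e _ _ _ (H.symm _ _ _ h1)
    have := dl_tri (φ := φ) (q x) (q w) (q y)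
    rw [mul_add]
    omega

theorem cl_of_near {q : P → P} (l : Lip φ K q) (hh : IsH st φ h)
    (n : Near φ (q '' bd st h) (bd st h')) : Cl φ q h h' := fun R => by
  obtain ⟨D, n⟩ := n
  refine ⟨D + K * R + 1, fun z hz => ?_⟩
  obtain ⟨w, hw, e⟩ := hh.exists_bd H z
  obtain ⟨b, hb, e'⟩ := n _ ⟨w, hw, rfl⟩
  have := dp_le H hb (q z)
  have := dl_tri (φ := φ) b (q w) (q z)
  have := (l w z).trans (Nat.mul_le_mul_left K (e.trans hz))
  rw [dl_comm] at e'
  omega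

variable (L : Loc Γ st)
include L

/-- **two deep sides** -/
theorem side_const {q : P ≃ P} (l : Lip φ K q) (hh : IsH st φ h)
    (c : Cl φ q.symm h' h) : ∃ R, ∀ x y, R ≤ ns φ h x → R ≤ ns φ h y → (q x ∈ h' ↔ q y ∈ h') := by
  obtain ⟨R, c⟩ := c K
  refine ⟨R + 1, fun x y hx hy => ?_⟩
  have key : ∀ u v, Ab st φ h (R + 1) u v → q u ∈ h' → q v ∈ h' := fun u v ⟨⟨a, e⟩, hu, _⟩ m =>
    by_contra fun n => by
      have e1 := dp_le_dl H m n
      have e2 := l u v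
      rw [H.dl_st e, mul_one] at e2
      have := c _ (e1.trans e2)
      rw [q.symm_apply_apply, dp] at this
      omega
  have : ∀ x y, ReflTransGen (Ab st φ h (R + 1)) x y → q x ∈ h' → q y ∈ h' := fun x y p m => by
    induction p with
    | refl => exact m
    | tail _ j ih => exact key _ _ j ih
  exact ⟨this _ _ (conn_ab H L hh R _ _ hx hy), this _ _ (conn_ab H L hh R _ _ hy hx)⟩

theorem exists_deep (hh : IsH st φ h) (R : ℕ) : ∃ z ∈ h, R ≤ dp φ h z := by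
  obtain ⟨z, h1, h2, -⟩ := deep H L hh hh (by simpa using hh.ne H) R
  exact ⟨z, h1.1, h2⟩

theorem rel_or {q : P ≃ P} (l : Lip φ K q) (hh : IsH st φ h) (hh' : IsH st φ h')
    (c : Cl φ q h h') (c' : Cl φ q.symm h' h) : Rel φ q h h' ∨ Rel φ q h h'ᶜ := by
  obtain ⟨R1, s1⟩ := side_const H L l hh c'
  obtain ⟨R2, s2⟩ := side_const H L l (hh.compl H) c'.compl
  have e1 : ∀ z, z ∉ h → R1 + R2 ≤ dp φ h z → R1 ≤ ns φ h z := fun z m e => by
    rw [dp, ns_zero (Q := hᶜ) m] at e; omega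
  have e2 : ∀ z, z ∈ h → R1 + R2 ≤ dp φ h z → R2 ≤ ns φ hᶜ z := fun z m e => by
    rw [dp, ns_zero m] at e; omega
  obtain ⟨u, hu, du⟩ := exists_deep H L hh (R1 + R2)
  obtain ⟨v, hv, dv⟩ := exists_deep H L (hh.compl H) (R1 + R2)
  rw [dp_compl] at dv
  have f1 : ∀ z, z ∉ h → R1 + R2 ≤ dp φ h z → (q z ∈ h' ↔ q v ∈ h') := fun z m e =>
    s1 _ _ (e1 z m e) (e1 v hv dv)
  have f2 : ∀ z, z ∈ h → R1 + R2 ≤ dp φ h z → (q z ∈ h' ↔ q u ∈ h') := fun z m e =>
    s2 _ _ (e2 z m e) (e2 u hu du)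
  have ne : ¬(q u ∈ h' ↔ q v ∈ h') := fun i => by
    obtain ⟨R', c⟩ := c (R1 + R2)
    have f : ∀ w, R' + 1 ≤ dp φ h' w → (w ∈ h' ↔ q u ∈ h') := fun w e => by
      have d : R1 + R2 ≤ dp φ h (q.symm w) := by_contra fun n => by
        have := c (q.symm w) (by omega)
        rw [q.apply_symm_apply] at this
        omega
      rw [← q.apply_symm_apply w]
      by_cases m : q.symm w ∈ h
      · exact f2 _ m d
      · exact (f1 _ m d).trans i.symm
    obtain ⟨w, hw, dw⟩ := exists_deep H L hh' (R' + 1)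
    obtain ⟨w', hw', dw'⟩ := exists_deep H L (hh'.compl H) (R' + 1)
    rw [dp_compl] at dw'
    exact hw' ((f w' dw').2 ((f w dw).1 hw))
  by_cases m : q u ∈ h'
  · refine Or.inl (rel_of (R := R1 + R2) (fun z e => ?_) c)
    by_cases n : z ∈ h
    · have := f2 z n e; tauto
    · have := f1 z n e; tauto
  · refine Or.inr (rel_of (R := R1 + R2) (fun z e => ?_) c.compl)
    rw [Set.mem_compl_iff]
    by_cases n : z ∈ h
    · have := f2 z n e; tauto
    · have := f1 z n e; tauto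

theorem Rel.inter {q : P ≃ P} (hh : IsH st φ h) (hk : IsH st φ k) (e : Rel φ q h h')
    (e' : Rel φ q k k') (n : (h ∩ k).Nonempty) : (h' ∩ k').Nonempty := by
  obtain ⟨R, e⟩ := e.1
  obtain ⟨R', e'⟩ := e'.1
  obtain ⟨z, m, d, d'⟩ := deep H L hh hk n (R + R')
  exact ⟨q z, (e z (by omega)).2 m.1, (e' z (by omega)).2 m.2⟩

theorem Rel.unique {q : P ≃ P} (hh : IsH st φ h') (hk : IsH st φ k') (e : Rel φ q h h')
    (e' : Rel φ q h k') : h' = k' := by
  have : ∀ h' k', IsH st φ h' → IsH st φ k' → Rel φ q h h' → Rel φ q h k' → h' ⊆ k' :=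
    fun h' k' hh hk e e' z m => by_contra fun n => by
      simpa using Rel.inter H L hh (hk.compl H) e.symm e'.compl.symm ⟨z, m, n⟩
  exact (this _ _ hh hk e e').antisymm (this _ _ hk hh e' e)

omit L in
/-- a consistent orientation that differs from a vertex in finitely many places is a vertex -/
theorem exists_vertex {U : Set (Set P)} (u0 : ∀ h ∈ U, IsH st φ h)
    (u1 : ∀ h, IsH st φ h → h ∈ U ∨ hᶜ ∈ U) (u2 : ∀ h ∈ U, ∀ k ∈ U, (h ∩ k).Nonempty)
    (x : P) (f : {h ∈ U | x ∉ h}.Finite) : ∃ y, ∀ h ∈ U, y ∈ h := by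
  generalize n : {h ∈ U | x ∉ h}.ncard = m
  induction m using Nat.strong_induction_on generalizing x with
  | _ m ih =>
  by_cases c : ∀ h ∈ U, x ∈ h
  · exact ⟨x, c⟩
  push Not at c
  obtain ⟨k, hk, xk⟩ := c
  have cv := (u0 k hk).cvx H
  obtain ⟨a, y, e, s⟩ := exists_desc H cv.ne (cv.sep x xk)
  have e' := H.symm _ _ _ e
  have sub : k ⊆ Hs φ y x := fun z hz => by
    rw [← Hs_compl H e]
    exact fun m => s z hz ((mem_Hs H e).1 m).symm
  have m1 : Hs φ y x ∈ U := (u1 _ ⟨_, _, _, e', rfl⟩).resolve_right fun m => by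
    obtain ⟨z, z1, z2⟩ := u2 _ hk _ m
    exact z2 (sub z1)
  have ss : {h ∈ U | y ∉ h} ⊂ {h ∈ U | x ∉ h} := by
    refine ⟨fun h hh => ⟨hh.1, fun m => ?_⟩, fun s => (s ⟨m1, not_mem H e'⟩).2 (self_mem H e')⟩
    obtain ⟨z, z1, z2⟩ := u2 _ hh.1 _ m1
    rw [(u0 h hh.1).eq H e m hh.2] at z1
    rw [← Hs_compl H e] at z2
    exact z2 z1
  exact ih _ (n ▸ Set.ncard_lt_ncard ss f) y (f.subset ss.1) rfl

omit L in
theorem near_finite (hl : ∀ x, {y | ∃ a, st x a y}.Finite) (x : P) (R : ℕ) :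
    {h | IsH st φ h ∧ dp φ h x ≤ R}.Finite := by
  have b := ball_finite H.isGM (fun x => ((hl x).insert x).subset fun y hy => by
    change dl φ x y ≤ 1 at hy
    rcases Nat.eq_zero_or_pos (dl φ x y) with h | h
    · exact Or.inl (H.eq_of_dl h).symm
    · obtain ⟨a, z, h1, h2⟩ := H.step (n := 0) (x := x) (y := y) (by omega)
      exact Or.inr ⟨a, H.eq_of_dl h2 ▸ H.symm _ _ _ h1⟩) x R
  refine (b.biUnion fun w _ => (hl w).image fun y => Hs φ w y).subset ?_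
  rintro h ⟨hh, d⟩
  obtain ⟨w, ⟨w1, a, y, w2, w3⟩, e⟩ := hh.exists_bd H x
  exact Set.mem_biUnion (x := w) (by change dl φ x w ≤ R; rw [dl_comm]; omega)
    ⟨y, ⟨a, w2⟩, (hh.eq H w2 w1 w3).symm⟩

/-- **the cubical map at bounded distance from `q`** -/
theorem exists_tau (hl : ∀ x, {y | ∃ a, st x a y}.Finite) {q : P ≃ P}
    (t : ∀ h, IsH st φ h → ∃ h', IsH st φ h' ∧ Rel φ q h h' ∧ RelR φ R q h h')
    (s : ∀ h', IsH st φ h' → ∃ h, IsH st φ h ∧ Rel φ q h h') :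
    ∃ τ : P → P, Lip φ 1 τ ∧ ∀ x h h', IsH st φ h → IsH st φ h' → Rel φ q h h' → (τ x ∈ h' ↔ x ∈ h) := by
  choose! σ σ1 σ2 σ3 using t
  have key : ∀ x, ∃ y, ∀ h h', IsH st φ h → IsH st φ h' → Rel φ q h h' → x ∈ h → y ∈ h' := fun x => by
    obtain ⟨y, hy⟩ := exists_vertex H
      (U := {h' | IsH st φ h' ∧ ∃ h, IsH st φ h ∧ Rel φ q h h' ∧ x ∈ h}) (fun _ h => h.1)
      (fun h' hh' => by
        obtain ⟨h, hh, e⟩ := s h' hh'
        by_cases m : x ∈ h
        · exact Or.inl ⟨hh', h, hh, e, m⟩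
        · exact Or.inr ⟨hh'.compl H, hᶜ, hh.compl H, e.compl, m⟩)
      (fun _ ⟨_, _, h1, h2, h3⟩ _ ⟨_, _, k1, k2, k3⟩ => Rel.inter H L h1 k1 h2 k2 ⟨x, h3, k3⟩) (q x)
      (((near_finite H hl x R).image σ).subset fun h' ⟨⟨h0, h, h1, h2, h3⟩, n⟩ => by
        have e := Rel.unique H L (σ1 h h1) h0 (σ2 h h1) h2
        exact ⟨h, ⟨h1, by_contra fun d => n (e ▸ (σ3 h h1 x (by omega)).2 h3)⟩, e⟩)
    exact ⟨y, fun h h' h1 h2 h3 h4 => hy h' ⟨h2, h, h1, h3, h4⟩⟩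
  choose τ hτ using key
  have iff : ∀ x h h', IsH st φ h → IsH st φ h' → Rel φ q h h' → (τ x ∈ h' ↔ x ∈ h) :=
    fun x h h' h1 h2 h3 => ⟨fun m => by_contra fun n =>
      hτ x _ _ (h1.compl H) (h2.compl H) h3.compl n m, hτ x h h' h1 h2 h3⟩
  refine ⟨τ, lip_of_st H fun x a y e => dl_le_one H fun h' k' h1 k1 m1 n1 m2 n2 => ?_, iff⟩
  obtain ⟨h, h2, h3⟩ := s h' h1
  obtain ⟨k, k2, k3⟩ := s k' k1
  rw [iff _ _ _ h2 h1 h3] at m1 n1
  rw [iff _ _ _ k2 k1 k3] at m2 n2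
  rw [h2.eq H e m1 n1] at h3
  rw [k2.eq H e m2 n2] at k3
  exact Rel.unique H L h1 k1 h3 k3

end lab

end Crest.Agent.N233.Rg

end
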