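import Crest.Agent.N233.Rg.Inn

/-!
# Row 233 (helper27): finitely many coarse images of the hyperplanes ⇒ `Out G` is finite
-/

set_option autoImplicit false

noncomputable section

namespace Crest.Agent.N233.Rg

open N255.Ra N255.Fa N233.Hyp Relation
open scoped Pointwise

variable {A P : Type} {Γ : SimpleGraph A} {st : P → A → P → Prop} {G : Type} [Group G] [MulAction G P]
variable {φ : P → W Γ} {B : Set P} {β : MulAut G}

/-- finitely many classes, and equal classes differ by a finite set modulo inner automorphisms -/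
theorem finiteIndex_of_cls {X : Type} {F : Set X} (hF : F.Finite) (Z : MulAut G → X) (hZ : ∀ α, Z α ∈ F)
    {T : Set (MulAut G)} (hT : T.Finite)
    (h : ∀ α α', Z α = Z α' → ∃ g : G, MulAut.conj g * (α⁻¹ * α') ∈ T) :
    (MulAut.conj : G →* MulAut G).range.FiniteIndex := by
  have : Finite (MulAut G ⧸ (MulAut.conj : G →* MulAut G).range) := by
    refine Set.finite_univ_iff.1 (((hF.prod hT).image fun p =>
      QuotientGroup.mk (Function.invFun Z p.1 * p.2)).subset fun c _ => ?_)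
    obtain ⟨α, rfl⟩ := QuotientGroup.mk_surjective c
    obtain ⟨g, hg⟩ := h (Function.invFun Z (Z α)) α (Function.invFun_eq ⟨α, rfl⟩)
    refine ⟨(Z α, _), ⟨hZ α, hg⟩, QuotientGroup.eq.2 ?_⟩
    generalize Function.invFun Z (Z α) = γ
    refine ⟨(γ⁻¹ * α)⁻¹ g⁻¹, ?_⟩
    ext s
    simp
  exact Subgroup.finiteIndex_of_finite_quotient

section lab
variable (H : Lab Γ st φ) (C : Act st G B)
include H C

/-- finitely many cubical automorphisms modulo `G` -/
theorem exists_cub_finite [Group.FG G] (o : P) : ∃ T : Set (MulAut G), T.Finite ∧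
    ∀ (β : MulAut G) (τ : P → P), Lip φ 1 τ → Eqv β τ → ∃ g : G, MulAut.conj g * β ∈ T := by
  obtain ⟨S, hS⟩ := Group.fg_def.1 (inferInstance : Group.FG G)
  refine ⟨(fun (γ : MulAut G) (s : S) => γ s) ⁻¹'
    {f | ∀ s : S, f s ∈ {γ : G | ∃ b ∈ B, dl φ b (γ • b) ≤ dl φ o ((s : G) • o)}},
    (Set.Finite.pi' fun s : S => disp_finite H C _).preimage fun γ _ γ' _ e => ?_, fun β τ l e => ?_⟩
  · ext s
    exact DFunLike.congr_fun (MonoidHom.eq_of_eqOn_dense hS (f := γ.toMonoidHom) (g := γ'.toMonoidHom)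
      fun s hs => congrFun e ⟨s, hs⟩) s
  · obtain ⟨g, hg⟩ := C.cc (τ o)
    refine ⟨g, fun s => ⟨_, hg, ?_⟩⟩
    change dl φ _ ((g * β s * g⁻¹) • _) ≤ _
    rw [mul_smul, inv_smul_smul, mul_smul, dl_smul H C, ← e]
    simpa using l o ((s : G) • o)

variable (L : Loc Γ st)
include L

/-- **R3**: finitely many coarse images of every hyperplane ⇒ `Inn G` has finite index in `Aut G` -/
theorem fin_of_hd [Group.FG G] (o : P) (hR : ∀ x ∈ B, ∀ a y, st x a y → ∃ F : Set (Set P), F.Finite ∧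
      ∀ α : MulAut G, ∃ Z ∈ F, ∃ g : G, HD φ (Orb α (MulAction.stabilizer G (Hs φ x y)) x) (g • Z)) :
    (MulAut.conj : G →* MulAut G).range.FiniteIndex := by
  let E := {e : P × P | e.1 ∈ B ∧ ∃ a, st e.1 a e.2}
  have : Finite E := (edges_finite C).to_subtype
  choose F F1 F2 using fun e : E => hR e.1.1 e.2.1 e.2.2.choose e.1.2 e.2.2.choose_spec
  choose Z Z1 g Z2 using F2
  obtain ⟨T, T1, T2⟩ := exists_cub_finite H C o
  refine finiteIndex_of_cls (Set.Finite.pi' F1) (fun α e => Z e α) (fun α e => Z1 e α) T1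
    fun α α' eq => ?_
  obtain ⟨τ, l, e⟩ := exists_cubical H C L (β := α⁻¹ * α') fun x hx a y s => by
    let e : E := ⟨(x, y), hx, a, s⟩
    obtain ⟨q, q1⟩ := exists_eqv C.free α⁻¹
    obtain ⟨K, l⟩ := q1.lip H C
    have d1 := (Z2 e α).smul H C (g e α' * (g e α)⁻¹)
    rw [smul_smul, inv_mul_cancel_right, show Z e α = Z e α' from congrFun eq e] at d1
    have d2 := ((Z2 e α').trans d1.symm).image l
    rw [q1.image, q1.orb, q1.orb, inv_mul_cancel] at d2
    exact ⟨_, ((hd_orb H C _ _ _ _).trans d2).trans ((hd_orb H C _ _ _ _).smul H C _)⟩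
  exact T2 _ τ l e

omit L in
/-- a finite index subgroup has a coarsely equal orbit -/
theorem hd_of_finiteIndex (α : MulAut G) (J : Subgroup G) (K : Subgroup J) [K.FiniteIndex] (x : P) :
    HD φ (Orb α J x) (Orb α (K.map J.subtype) x) := by
  refine ⟨?_, .of_subset (Set.image_mono (Subgroup.map_subtype_le K))⟩
  obtain ⟨D, hD⟩ := (Set.finite_range fun c : J ⧸ K => dl φ (α (c.out⁻¹ : J) • x) x).bddAbove
  refine ⟨D, ?_⟩
  rintro _ ⟨j, hj, rfl⟩
  obtain ⟨k, hk⟩ := QuotientGroup.mk_out_eq_mul K (⟨j, hj⟩ : J)⁻¹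
  refine ⟨_, ⟨_, ⟨k, k.2, rfl⟩, rfl⟩, ?_⟩
  have e : j = (k : J) * ((((⟨j, hj⟩ : J)⁻¹ : J) : J ⧸ K).out⁻¹ : J) := by rw [hk]; simp
  have := hD ⟨((⟨j, hj⟩ : J)⁻¹ : J), rfl⟩
  change dl φ (α j • x) (α (k : J) • x) ≤ D
  rw [e, map_mul, mul_smul, dl_smul H C]
  exact this

/-- **R3**, in the form of Delzant's theorem (`Ou.delzant`) -/
theorem fin_of_delzant [Group.FG G] (o : P) (hR : ∀ x ∈ B, ∀ a y, st x a y →
      ∃ F : Set (Subgroup G), F.Finite ∧ ∀ f : MulAction.stabilizer G (Hs φ x y) →* G,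
        Function.Injective f → ∃ K : Subgroup (MulAction.stabilizer G (Hs φ x y)), K.FiniteIndex ∧
          ∃ g : G, (K.map f).map (MulAut.conj g).toMonoidHom ∈ F) :
    (MulAut.conj : G →* MulAut G).range.FiniteIndex := by
  refine fin_of_hd H C L o fun x hx a y s => ?_
  obtain ⟨F, F1, F2⟩ := hR x hx a y s
  refine ⟨_, F1.image fun M => Orb 1 M x, fun α => ?_⟩
  obtain ⟨K, K1, g, K2⟩ := F2 (α.toMonoidHom.comp (Subgroup.subtype _))
    (α.injective.comp Subtype.val_injective)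
  refine ⟨_, ⟨_, K2, rfl⟩, g⁻¹, (hd_of_finiteIndex H C α _ K x).trans ?_⟩
  refine HD.trans ?_ ((hd_orb H C 1 _ (g • x) x).smul H C g⁻¹)
  have : g⁻¹ • Orb 1 ((K.map (α.toMonoidHom.comp (Subgroup.subtype _))).map
      (MulAut.conj g).toMonoidHom) (g • x) = Orb α (K.map (Subgroup.subtype _)) x := by
    rw [← Set.image_smul, Orb, Orb, Subgroup.coe_map, Subgroup.coe_map, Subgroup.coe_map]
    simp only [Set.image_image]
    refine Set.image_congr fun k _ => ?_
    simp [smul_smul]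
  rw [this]
  exact ⟨.of_subset subset_rfl, .of_subset subset_rfl⟩

end lab

end Crest.Agent.N233.Rg

end
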