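import Crest.Agent.N233.Rg.Inn
import Crest.Agent.N233.Hi.Hy

/-!
# Row 233 (helper27): no inversions of hyperplanes
-/

set_option autoImplicit false

noncomputable section

namespace Crest.Agent.N233.Rg

open N255.Ra N255.Fa N233.Hyp Relation
open scoped Pointwise

section lab
variable {A P : Type} {Γ : SimpleGraph A} {st : P → A → P → Prop} {φ : P → W Γ}
  {x y z u v : P} {a b : A} (H : Lab Γ st φ)
include H

theorem hp_eq_of_cross (e : st x a y) (e' : st u b v) (hu : u ∈ Hs φ x y) (hv : v ∉ Hs φ x y) :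
    hp φ x a = hp φ u b := by
  rw [mem_Hs H e] at hu hv
  exact by_contra fun n => hv ((sd_st H e' n).trans hu)

/-- parallel edges of a square -/
theorem Hs_par (e : st x a y) (e' : st x b z) (j : Γ.Adj a b) (e'' : st z a u) :
    Hs φ x y = Hs φ z u := by
  have s := sd_st H e' (r := hp φ x a) fun r => j.ne (hw_inj r)
  refine IsH.eq H ⟨_, _, _, e, rfl⟩ e'' ((mem_Hs H e).2 s) fun m => sd_st_ne H e'' ?_
  rw [hp_adj H e' j.symm, s, (mem_Hs H e).1 m]

/-- edges with the same half space are joined inside the carrier -/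
theorem par_path (e : st x a y) (e' : st u b v) (h : Hs φ u v = Hs φ x y) :
    b = a ∧ ReflTransGen (fun p q => ∃ c, st p c q ∧ Γ.Adj a c) x u := by
  generalize n : dl φ x u = m
  induction m generalizing u v with
  | zero =>
    obtain rfl := H.eq_of_dl n
    exact ⟨(hw_inj (hp_eq_of_cross H e e' (self_mem H e) (h ▸ not_mem H e'))).symm, .refl⟩
  | succ m ih =>
    obtain ⟨c, w, h1, h2, h3⟩ := step' H n
    have r := hp_eq_of_cross H e e' (h ▸ self_mem H e') (h ▸ not_mem H e')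
    have s : sd φ (hp φ u b) x = sd φ (hp φ u b) u := (mem_Hs H e').1 (h ▸ self_mem H e)
    have ne : hp φ u c ≠ hp φ u b := fun k => h3 (by rw [k, s])
    have j : Γ.Adj b c := adj_of_sep (z := y) (fun k => not_mem H e (h ▸ (mem_Hs H e').2 k.symm))
      (by rwa [sd_st H e (r ▸ ne)]) fun k => ne (by rw [k])
    obtain ⟨w', k1, k2⟩ := H.dia _ _ _ _ _ j e' h1
    obtain ⟨rfl, p⟩ := ih k2 ((Hs_par H e' h1 j k2).symm.trans h) h2
    exact ⟨rfl, p.tail ⟨c, H.symm _ _ _ h1, j⟩⟩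

variable {G : Type} [Group G] [MulAction G P]

theorem smul_Hs' (hi : ∀ (g : G) x a y, st x a y → ∃ b, st (g • x) b (g • y)) (g : G) (x y : P) :
    g • Hs φ x y = Hs φ (g • x) (g • y) := by
  have d : ∀ (g : G) x y, dl φ (g • x) (g • y) = dl φ x y := fun g x y =>
    le_antisymm (H.dl_map_le (hi g) _ x y rfl) (by simpa using H.dl_map_le (hi g⁻¹) _ (g • x) (g • y) rfl)
  ext z
  rw [Set.mem_smul_set_iff_inv_smul_mem, Hs, Hs, Set.mem_ofPred_eq, Set.mem_ofPred_eq,
    ← d g, ← d g _ y, smul_inv_smul]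

end lab

section mst
variable {S N Ed F : Type} {Γ : SimpleGraph S} [Group F] [MulAction F N] (ρ : F →* (Γ ≃g Γ))
  {src tgt : Ed → N} {T : S → Set N} {φ : W Γ × N → W (cone Γ src tgt T)}

attribute [local instance] Hi.actW

/-- **no inversions** in a subgroup of `W ⋊ F` -/
theorem noinv_mst (H : Lab (cone Γ src tgt T) (mst Γ src tgt T) φ)
    (hT : ∀ (g : F) s t, t ∈ T s → g • t ∈ T (ρ g s)) {μ : F → Ed → Ed}
    (h1 : ∀ g e, src (μ g e) = g • src e) (h2 : ∀ g e, tgt (μ g e) = g • tgt e)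
    (hF : ∀ f s, ρ f s = s → f = 1) (g : W Γ ⋊[autHom ρ] F)
    (hg : g.right = 1 → ∀ v s, ∀ u ∈ WT Γ {t | Γ.Adj s t}, g.left ≠ v * (gen Γ s * u) * v⁻¹)
    {x y : W Γ × N} {a : S ⊕ Ed} (e : mst Γ src tgt T x a y) : Hs φ (g • x) (g • y) ≠ Hs φ y x := by
  intro h
  rcases a with s | d
  · obtain ⟨k, p⟩ := par_path H (H.symm _ _ _ e) (Hi.actW_inl ρ hT g e) h
    have r := hF _ _ (Sum.inl.inj k)
    have : ∀ z, ReflTransGen (fun p q => ∃ c, mst Γ src tgt T p c q ∧ (cone Γ src tgt T).Adj (.inl s) c) y z →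
        y.1⁻¹ * z.1 ∈ WT Γ {t | Γ.Adj s t} := fun z p => by
      induction p with
      | refl => simp
      | tail _ j ih =>
        obtain ⟨t | c, j1, j2⟩ := j
        · rw [j1.2, ← mul_assoc]
          exact mul_mem ih (gen_mem_WT j2)
        · rwa [j1.1]
    refine hg r x.1 s _ (this _ p) ?_
    simp [e.2, Hi.actW_def, r, mul_assoc]
  · obtain ⟨k, p⟩ := par_path H (H.symm _ _ _ e) (Hi.actW_inr ρ h1 h2 g e) h
    have r := Sum.inr.inj k
    have : ∀ z, ReflTransGen (fun p q => ∃ c, mst Γ src tgt T p c q ∧ (cone Γ src tgt T).Adj (.inr d) c) y z →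
        z.2 = y.2 := fun z p => by
      induction p with
      | refl => rfl
      | tail _ j ih =>
        obtain ⟨t | c, j1, j2⟩ := j
        · rw [j1.2, ih]
        · exact j2.elim
    have q := this _ p
    have s1 := h1 g.right d
    have s2 := h2 g.right d
    rw [r] at s1 s2
    have : y = x := by
      refine Prod.ext e.1 (q.symm.trans ?_)
      change g.right • x.2 = x.2
      rcases e.2 with ⟨a, -⟩ | ⟨a, -⟩ <;> rw [a]
      exacts [s1.symm, s2.symm]
    subst this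
    exact not_mem H e (self_mem H e)

/-- **no inversions**, in the form of `Ou.exists_ws` -/
theorem ni_mst (H : Lab (cone Γ src tgt T) (mst Γ src tgt T) φ)
    (hT : ∀ (g : F) s t, t ∈ T s → g • t ∈ T (ρ g s)) {μ : F → Ed → Ed}
    (h1 : ∀ g e, src (μ g e) = g • src e) (h2 : ∀ g e, tgt (μ g e) = g • tgt e)
    (hF : ∀ f s, ρ f s = s → f = 1) (g : W Γ ⋊[autHom ρ] F)
    (hg : g.right = 1 → ∀ v s, ∀ u ∈ WT Γ (Γ.neighborSet s), g.left ≠ v * (u * gen Γ s) * v⁻¹)
    {x y : W Γ × N} {a : S ⊕ Ed} (e : mst Γ src tgt T x a y) : g • Hs φ x y ≠ Hs φ y x := by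
  rw [smul_Hs' H (G := W Γ ⋊[autHom ρ] F) (by
    rintro g x (s | d) y e
    exacts [⟨_, Hi.actW_inl ρ hT g e⟩, ⟨_, Hi.actW_inr ρ h1 h2 g e⟩])]
  refine noinv_mst ρ H hT h1 h2 hF g (fun r v s u hu => ?_) e
  rw [(comm_WT (fun _ h _ => h) hu).eq]
  exact hg r v s u hu

end mst

section D
open N255.Pt PS Hi
variable {ι I Tor F : Type} {X : Set (St ι I Tor) → Prop} [Group F] (j : F →* FreeGroup ι)
  (ρ : F →* (ps X ≃g ps X)) (hρ : ∀ f a, car (ρ f a) = (j f • ·) '' car a)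
include hρ

/-- **no inversions** for 25's action `actD` -/
theorem ni_D {φ : W (ps X) × FreeGroup ι → W (cone (ps X) (sr ι) (tg ι) (Ts Tc))}
    (H : Lab (cone (ps X) (sr ι) (tg ι) (Ts Tc)) (mst (ps X) (sr ι) (tg ι) (Ts Tc)) φ)
    (hF : ∀ f s, ρ f s = s → f = 1) (g : W (ps X) ⋊[autHom ρ] F)
    (hg : g.right = 1 → ∀ v s, ∀ u ∈ WT (ps X) ((ps X).neighborSet s),
      g.left ≠ v * (u * gen (ps X) s) * v⁻¹) {x y : W (ps X) × FreeGroup ι}
    {a : PV X ⊕ FreeGroup ι × ι} (e : mst (ps X) (sr ι) (tg ι) (Ts Tc) x a y) :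
    letI := actD j ρ; g • Hs φ x y ≠ Hs φ y x := by
  let := actN j
  exact ni_mst ρ H (ts_smul j ρ hρ) (μ := fun f e => (j f * e.1, e.2)) (fun _ _ => rfl)
    (fun _ _ => mul_assoc _ _ _) hF g hg e

end D

end Crest.Agent.N233.Rg

end
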